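import Vale.Agent.P319.Full

/-! Deterministic polynomial-time factoring of polynomials over prime fields. -/

namespace Vale.Agent.Results.P319.Full

open Vale.Agent.P319

theorem result : ∃ (F : List ℕ → List ℕ)
    (M : Turing.TM2ComputableInPolyTime code code F), (∀ k, Finite (M.tm.Γ k)) ∧
    ∀ (p : ℕ) (a : List ℕ), p.Prime → toPoly p a ≠ 0 →
      IsFactorization p (toPoly p a) (F (p :: a)) := full

end Vale.Agent.Results.P319.Full
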